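import Vale.Agent.P210E.Chain
import Vale.Agent.P210K.Base
import Vale.Agent.P210K.Tr
import Vale.Agent.P210L.Lbar

/-!
# P210M: `GRADO` and the radial lemma in dimension one
-/

open Filter Topology Set
open scoped ContDiff
open Vale.Agent.P366M Vale.Agent.P210G Vale.Agent.P210U Vale.Agent.P210E

noncomputable section

namespace Vale.Agent.P210M

theorem grado : GRADO := fun n M _ g v P O K ε hn hg hv hP hO hK hKO hε h => by
  rcases K.eq_empty_or_nonempty with rfl | hne
  · exact ⟨fun _ => 0, cd_const, by simp⟩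
  obtain ⟨X', _, _, π, σ, V, a, b, s⟩ := P210L.closeup hg hK hO hKO hne
  have cv : CC ∞ (pullC π v) := by
    have := P210K.cc_cut (χ := fun _ => (1 : ℝ)) isOpen_univ (fun z _ => s.sm z) cd_const
      (subset_univ _) hv
    simpa only [one_mul] using this
  obtain ⟨f, f1, f2⟩ := grad_of_Rv (θ := 0) (P := fun x => P (π x)) hn bg_met cv
    (P366D.smooth_comp s.sm hP) (by norm_num) (s.isOpen s.opn subset_rfl) (P210K.cpt_img s hK a)
    (image_mono a) hε (by
      rintro _ ⟨z, hz, rfl⟩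
      rw [P210K.Rv_eq' (s.iso z hz) hv fun _ => .rfl, s.rt z hz, zero_mul, add_zero]
      exact h z (b hz))
  obtain ⟨f', p, q⟩ := P210L.sec_down s hK a f1
  refine ⟨f', p, fun z hz => ?_⟩
  have := f2 _ ⟨z, hz, rfl⟩
  rw [(s.iso z (a hz)).Rf (p.c2 _) (q z hz).2, s.rt z (a hz), zero_mul, add_zero] at this
  exact this.le

theorem bl_zero : BL 0 := by
  refine ⟨1, le_rfl, 1, one_pos, fun a ha η _ => ⟨1, one_pos, fun ε _ _ M _ g v l G O h => ?_⟩⟩
  have e : K4 G O = O := by
    ext x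
    simp [K4, nsq]
  obtain rfl : O = ∅ := P210K.base_empty h.ok.met h.ok.cc h.opn (e ▸ h.cpt) fun x hx =>
    pos_of_mul_pos_right (ha.trans_le (h.bd x (e.ge hx)).1) (sq_nonneg _)
  exact ⟨g, v, l, G, .refl, h.ok.sml, h.ok.l0, h.smG, fun _ _ => rfl, fun _ _ _ => rfl,
    fun _ k => k.elim, fun _ k => k.1.elim⟩

end Vale.Agent.P210M
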