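import Vale.Agent.P210E.Zs
import Vale.Agent.P210N.Zst
import Vale.Agent.P210F.Jet

/-!
# P210M: the state on the hypersurface, `ZA`
-/

open Filter Topology Set
open scoped ContDiff
open Vale.Agent.P366D (Rf Mc Sub pull smooth_comp)
open Vale.Agent.P366M Vale.Agent.P366M.Gr Vale.Agent.P366M.An Vale.Agent.P366M.Y.C
open Vale.Agent.P210G Vale.Agent.P210H Vale.Agent.P210U Vale.Agent.P210E
open Vale.Agent.P210L (Vf)
open Fin (last)

noncomputable section

namespace Vale.Agent.P210M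

/-- a property which holds near each point of the limit holds on the slabs -/
theorem ev_neck {k : ℕ} {X I : Type} [Mf0 (k + 1) X] {𝒰 : Ultrafilter I} {g : Fld (k + 1) X}
    {f h : X → ℝ} {u : I → X → ℝ} {c ε : I → ℝ} {O K : Set X} {Λ S : ℝ}
    (F : Vf 𝒰 g f h u c ε O K Λ) {P : I → X → Prop}
    (H : ∀ x ∈ La 𝒰 u, ∀ᶠ p in nk (𝒰 : Filter I) u S x, P p.1 p.2) :
    ∀ᶠ i in (𝒰 : Filter I), ∀ x, |u i x| ≤ S → P i x := by
  have : LocallyCompactSpace X := ChartedSpace.locallyCompactSpace (P366.Stmt.E (k + 1)) X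
  refine ((F.cf S).and (P366P.ev_cpt (l := (𝒰 : Filter I)) (P := fun i x => |u i x| ≤ S → P i x)
    F.cpt fun x _ => ?_)).mono fun i a x hx => a.2 x (a.1 x hx) hx
  by_cases hx : x ∈ La 𝒰 u
  · exact eventually_inf_principal.1 (H x hx)
  obtain ⟨V, hV, cV, sV⟩ := exists_mem_nhds_isClosed_subset
    ((isClosed_La 𝒰 u).isOpen_compl.mem_nhds hx)
  exact eventually_prod_iff.2 ⟨_, F.conc S cV.isOpen_compl fun y a b => sV b a, _, hV,
    fun a y b q => (a y q b).elim⟩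

theorem za : ZA := by
  intro k X _ d Z _ ι o r
  have F := o.nck.vf
  have hι := r.sub
  have H₁ := o.H₁
  have H₂ := o.H₂
  have δ0 := o.δ0
  have mA : ∀ z, ι z ∈ d.A \ d.S := fun z => hι.rng ▸ mem_range_self z
  have mK : ∀ z, ι z ∈ d.K₀ := fun z => F.la_sub (mA z).1
  have an := fun z => o.nck.ann _ (F.sub (mK z))
  have m4 : ∀ z, ι z ∈ K4 d.G d.O := fun z => ⟨(an z).1, by linarith [(an z).2.2]⟩
  have cp : ∀ C, IsClosed C → (∀ x ∈ d.S, x ∉ C) → IsCompact (ι ⁻¹' C) := fun C hC hS => by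
    rw [hι.emb.isCompact_iff, image_preimage_eq_inter_range, hι.rng]
    convert F.cpt_la.inter_left hC using 1
    exact Set.ext fun x => ⟨fun q => ⟨q.1, q.2.1⟩, fun q => ⟨q.1, q.2, fun s => hS x s q.1⟩⟩
  have c₁ := isClosed_le H₁.smw.cont (continuous_const (y := (11 / 8 : ℝ)))
  have cC := cp _ (c₁.union (isClosed_le H₂.smw.cont (continuous_const (y := (1 : ℝ)))))
    fun x s q => q.elim (fun q => by linarith [H₁.inn x s, show d.w₁ x ≤ _ from q])
      fun q => by linarith [H₂.inn x s, show d.w₂ x ≤ _ from q]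
  have hγ := hι.met F.met
  have l0 := o.bd.ok.l0
  have sl := o.bd.ok.sml
  have sq : ∀ a : ℝ, Smooth fun x => a / d.l x ^ 2 := fun a =>
    CD.div cd_const (CD.pow sl 2) fun x => (pow_pos (l0 x) 2).ne'
  obtain ⟨l, sl', hl⟩ := F.state (P := fun x => (d.a - d.η) / d.l x ^ 2) k.succ_pos hι r.rg
    (sq _) isOpen_univ
    (fun z _ => Eventually.mono (F.opn.mem_nhds (F.sub (mK z))) o.nck.pos) cC (subset_univ _) δ0
  obtain ⟨D⟩ := P210V.exists_Ex hι cC isOpen_univ (subset_univ _)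
  have df : ∀ {u : X → ℝ}, Smooth u → ∀ y, DAt u y := fun hu y => CD.differentiable hu (by simp) y
  have sL := D.sm_eF sl'
  have sW : Smooth (P210X.lg d.W₁ d.W₂) := CD.add
    (CD.mul cd_const (CD.log H₁.smW fun y => by linarith [H₁.W1 y]))
    (CD.mul cd_const (CD.log H₂.smW fun y => by linarith [H₂.W1 y]))
  have sF : Smooth fun y => d.f y + D.eF l y + P210X.lg d.W₁ d.W₂ y := CD.add (CD.add F.smf sL) sW
  have eO : d.Om (D.eF l) = fun j y => -pd j (fun y => d.f y + D.eF l y + P210X.lg d.W₁ d.W₂ y) y := by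
    funext j y
    rw [pd_add (df (CD.add F.smf sL) y) (df sW y), pd_add (df F.smf y) (df sL y)]
    simp only [Da.Om, neg_add, neg_one_mul]
    rfl
  have a1 : ∀ i y, pullC ι (d.Om (D.eF l)) i y =
      -pd i (fun y => d.f (ι y) + D.eF l (ι y) + P210X.lg d.W₁ d.W₂ (ι y)) y := fun i y => by
    rw [eO, ← pullC_pd (df sF _) (hι.sm y)]
    simp only [pullC, mul_neg, Finset.sum_neg_distrib]
  have gr : ∀ {u : X → ℝ}, Smooth u → ∀ z, gn (pull ι d.g) (fun y => u (ι y)) z ≤ gn d.g u (ι z) :=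
    fun hu z => P366H.gn_res F.met hγ (hι.sm z) (df hu _)
  have p₁ := fun z => H₁.sub Z ι hγ r.mc z (hι.sm z)
  have key : ∀ z, d.w₁ (ι z) ≤ 11 / 8 ∨ d.w₂ (ι z) ≤ 1 → d.VA (ι z) +
      (gn (pull ι d.g) (fun z => d.W₂ (ι z)) z / d.W₂ (ι z)) ^ 2 / 8 <
        Rv (pull ι d.g) (pullC ι (d.Om (D.eF l))) z ∧ (d.w₁ (ι z) ≤ 11 / 8 → d.VA (ι z) +
      (gn (pull ι d.g) (fun z => d.W₁ (ι z)) z / d.W₁ (ι z)) ^ 2 / 2 ≤
        Rv (pull ι d.g) (pullC ι (d.Om (D.eF l))) z) := fun z hz => by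
    have ci := hι.emb.continuous.continuousAt (x := z)
    have a2 : (fun y => d.f (ι y) + D.eF l (ι y) + P210X.lg d.W₁ d.W₂ (ι y)) =ᶠ[𝓝 z] fun y =>
        d.f (ι y) + l y + (1 / 2 * Real.log (d.W₁ (ι y)) + 1 / 4 * Real.log (d.W₂ (ι y))) :=
      (ci.eventually (D.wt_one hz)).mono fun y hy => by simp only [D.eF_ι, hy, one_mul, P210X.lg]
    have key := fun c hc => P210N.zst_pt (c := c) hγ (smooth_comp hι.sm F.smf) sl'
      (smooth_comp hι.sm H₁.smW) (smooth_comp hι.sm H₂.smW) (fun y => H₁.W1 _) (fun y => H₂.W1 _) hc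
      ((gr F.smf z).trans ((le_add_of_nonneg_left (abs_nonneg _)).trans (o.fB _ (mK z)))) (p₁ z).sup
      (H₂.sub Z ι hγ r.mc z (hι.sm z)).sup a1
    have b1 := hl z hz
    have b2 := div_le_self δ0.le (H₁.W1 (ι z))
    have b3 := div_le_self δ0.le (H₂.W1 (ι z))
    have b4 := o.δl _ (m4 z)
    have b5 : d.VA (ι z) = (d.a - d.η) / d.l (ι z) ^ 2 - d.η / d.l (ι z) ^ 2 +
        d.Γ * ((d.W₁ (ι z) - 1) / d.W₁ (ι z)) := by rw [Da.VA]; ring
    refine ⟨?_, fun hn => ?_⟩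
    · have k1 := key _ (by norm_num) a2
      rw [sub_div, mul_div_assoc, zero_mul, sub_zero] at k1
      linarith [sq_nonneg (gn (pull ι d.g) (fun z => d.W₁ (ι z)) z / d.W₁ (ι z))]
    · have k1 := key 0 le_rfl (a2.trans ((ci.eventually (H₂.cpt.isClosed.isOpen_compl.mem_nhds
        fun q => by linarith [o.s₂ _ q])).mono
          fun y hy => by simp only [(H₂.out _ hy).1, Real.log_one, mul_zero]))
      rw [sub_div, mul_div_assoc] at k1
      linarith
  have sD : ∀ j, Smooth (d.D j) := fun j => CD.sub (o.bd.smG _) cd_const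
  refine ⟨D.eF l, sL, ⟨⟨hγ, ?_, smooth_comp hι.sm sl, fun z => l0 _⟩,
    smooth_comp hι.sm (o.bd.smG _), fun j => smooth_comp hι.sm (sD j), smooth_comp hι.sm H₁.smW,
    smooth_comp hι.sm H₁.smw, cp _ c₁ fun x s q => by linarith [H₁.inn x s, show d.w₁ x ≤ _ from q],
    fun z => H₁.W1 _, fun z => H₁.lrg _, fun z q => (hι.sm z).cAt le_rfl (H₁.smh _ q),
    fun z => H₁.h0 _, fun z => H₁.low _, fun c => (H₁.cls c).imp fun b q => ⟨q.1, fun z => q.2 _⟩,
    fun z q => by linarith [(p₁ z).pos q, o.δ1], fun z => (p₁ z).big,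
    fun z q => o.s₁ _ (by_contra fun s => by linarith [(H₁.out _ s).2.1]), fun z _ a b => ?_,
    fun z q => ⟨(key z (.inl q)).2 q, o.l0 _ (m4 z), (gr sl z).trans (o.bd.bd _ (m4 z)).2.1,
      fun j => (mul_le_mul_of_nonneg_left (gr (sD j) z) (l0 _).le).trans ?_⟩⟩, fun S => ?_⟩
  · rw [show pullC ι (d.Om (D.eF l)) = _ from funext fun i => funext (a1 i)]
    exact (cc_df (smooth_comp hι.sm sF)).neg
  · have h1 := (an z).2.1
    have h2 : ∑ j : Fin k, d.G j.castSucc (ι z) ^ 2 ≤ ∑ j, (2 * d.D j (ι z) ^ 2 + 2 * d.b₀ j ^ 2) :=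
      Finset.sum_le_sum fun j _ => by
        rw [Da.D]; nlinarith [sq_nonneg (d.G j.castSucc (ι z) - 2 * d.b₀ j)]
    rw [Finset.sum_add_distrib, ← Finset.mul_sum, ← Finset.mul_sum] at h2
    rw [nsq, Fin.sum_univ_castSucc] at h1
    have h3 := o.b0
    rw [nsq] at b
    exact abs_le_of_sq_le_sq' (a := 1 / 2) (by linarith) a.le |>.2
  · rw [gn_of_pd_eq (u := d.D j) (v := d.G j.castSucc) fun i => pd_sub_const _ i]
    exact (o.bd.bd _ (m4 z)).2.2 _
  refine (ev_neck (S := max S 1) (P := fun i x => d.w₂ x ≤ 1 → d.VA x +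
    (gn (d.gi i) d.W₂ x / d.W₂ x) ^ 2 / 8 ≤ Rv (d.gi i) (d.Om (D.eF l)) x) F fun x hx => ?_).mono
      fun i q x hx => q x (hx.trans (le_max_left _ _))
  have t2 : Tendsto Prod.snd (nk (hyperfilter ℕ : Filter ℕ) d.u (max S 1) x) (𝓝 x) :=
    tendsto_snd.mono_left inf_le_left
  rcases lt_or_ge 1 (d.w₂ x) with q | q
  · exact (t2.eventually (H₂.smw.cont.continuousAt.eventually (lt_mem_nhds q))).mono
      fun p a b => (a.not_ge b).elim
  obtain ⟨z, rfl⟩ : x ∈ range ι := hι.rng ▸ ⟨hx, fun s => by linarith [H₂.inn x s]⟩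
  obtain ⟨j1, j2⟩ := P210F.jet ℕ _ (k + 1) X Z ι _ d.u _ z d.g hι F.smu
    (r.rg _ (lt_max_of_lt_right one_pos) z) F.met
  have cV : Continuous d.VA := (sq _).cont.add (continuous_const.mul
    ((H₁.smW.cont.sub continuous_const).div H₁.smW.cont fun x => by linarith [H₁.W1 x]))
  exact ((((cV.tendsto _).comp t2).add ((((j2 _ H₂.smW).div ((H₂.smW.cont.tendsto _).comp t2)
    (by linarith [H₂.W1 (ι z)])).pow 2).div_const 8)).eventually_lt
      (j1 _ (eO ▸ (cc_df sF).neg)) (key z (.inr q)).1).mono fun p a _ => a.le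

end Vale.Agent.P210M
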